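import Mathlib

namespace Vale.Agent.P069

/-- Partial sums along the path from the root `[]` to a node. The parent of `i :: t` is `t`. -/
def S (z : List ℕ → ℝ) : List ℕ → ℝ
  | [] => z []
  | (i :: t) => z (i :: t) + S z t

/-- Increments. -/
def Dif (f : List ℕ → ℝ) : List ℕ → ℝ
  | [] => f []
  | (i :: t) => f (i :: t) - f t

lemma S_Dif (f : List ℕ → ℝ) (u : List ℕ) : S (Dif f) u = f u := by
  induction u with
  | nil => rfl
  | cons i t ih => simp [S, Dif, ih]

lemma S_add (f g : List ℕ → ℝ) (u : List ℕ) : S (fun v => f v + g v) u = S f u + S g u := by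
  induction u with
  | nil => rfl
  | cons i t ih => simp only [S, ih]; ring

lemma S_smul (c : ℝ) (f : List ℕ → ℝ) (u : List ℕ) : S (fun v => c * f v) u = c * S f u := by
  induction u with
  | nil => rfl
  | cons i t ih => simp only [S, ih]; ring

lemma S_neg (f : List ℕ → ℝ) (u : List ℕ) : S (fun v => - f v) u = - S f u := by
  have := S_smul (-1) f u
  simpa using this

lemma abs_S_le (f : List ℕ → ℝ) (c : ℝ) (h : ∀ v, |f v| ≤ c) (u : List ℕ) :
    |S f u| ≤ (u.length + 1) * c := by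
  induction u with
  | nil => simpa [S] using h []
  | cons i t ih =>
    have h1 := abs_add_le (f (i :: t)) (S f t)
    have h2 := h (i :: t)
    simp only [S, List.length_cons]
    push_cast
    nlinarith

lemma mid_key (n : ℕ) (R : Set (List ℕ)) (hR0 : [] ∈ R) (hR : ∀ i t, i :: t ∈ R → t ∈ R)
    (g k : List ℕ → ℝ) (hg : ∀ u, u ∉ R → g u = 0)
    (hgS : ∀ u : List ℕ, u.length ≤ n → |S g u| ≤ 1) (hkS : ∀ u : List ℕ, u.length ≤ n → |S k u| ≤ 1)
    (α β : ℝ) (hα : 0 ≤ α) (hβ : 0 ≤ β) (hα1 : α ≤ 1) (hβ1 : β ≤ 1) :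
    ∃ P Q : List ℕ → ℝ, (∀ u ∈ R, P u = α * g u ∧ Q u = α * g u) ∧
      (∀ u, u ∉ R → P u - Q u = β / 2 * k u ∧ |P u| ≤ β / 2 * |k u| ∧ |Q u| ≤ β / 2 * |k u|) ∧
      (∀ u : List ℕ, u.length ≤ n → |S P u| ≤ 1 ∧ |S Q u| ≤ 1) := by
  classical
  set k' : List ℕ → ℝ := fun u => if u ∈ R then 0 else β / 2 * k u with hk'
  set m : List ℕ → ℝ := S k' with hm
  have hmR : ∀ u ∈ R, m u = 0 := by
    intro u
    induction u with
    | nil => intro h; simp [hm, S, hk', h]
    | cons i t ih =>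
      intro h
      have := ih (hR i t h)
      rw [hm] at this
      simp [hm, S, hk', h]
      simpa [hk'] using this
  have hmform : ∀ u : List ℕ, ∃ v : List ℕ, v.length ≤ u.length ∧ m u = β / 2 * (S k u - S k v) := by
    intro u
    induction u with
    | nil => exact ⟨[], le_rfl, by rw [hmR _ hR0]; ring⟩
    | cons i t ih =>
      by_cases h : i :: t ∈ R
      · exact ⟨i :: t, le_rfl, by rw [hmR _ h]; ring⟩
      · obtain ⟨v, hv, hv'⟩ := ih
        refine ⟨v, by simp; omega, ?_⟩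
        have h1 : m (i :: t) = k' (i :: t) + m t := rfl
        rw [h1, hv']
        simp only [hk', h, if_false, S]
        ring
  have hmabs : ∀ u : List ℕ, u.length ≤ n → |m u| ≤ β := by
    intro u hu
    obtain ⟨v, hv, hv'⟩ := hmform u
    have h1 := abs_le.1 (hkS u hu)
    have h2 := abs_le.1 (hkS v (hv.trans hu))
    rw [hv', abs_le]
    constructor <;> nlinarith [h1.1, h1.2, h2.1, h2.2]
  set P0 : List ℕ → ℝ := fun u => if 0 ≤ S g u then α * S g u - max (-(m u)) 0
    else α * S g u + max (m u) 0 with hP0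
  set Q0 : List ℕ → ℝ := fun u => if 0 ≤ S g u then α * S g u - max (m u) 0
    else α * S g u + max (-(m u)) 0 with hQ0
  have habs1 : ∀ a b : ℝ, |max a 0 - max b 0| ≤ |a - b| := by
    intro a b
    have := abs_max_sub_max_le_abs a b 0
    exact this
  have hRval : ∀ u ∈ R, P0 u = α * S g u ∧ Q0 u = α * S g u := by
    intro u hu
    simp [hP0, hQ0, hmR u hu]
  refine ⟨Dif P0, Dif Q0, ?_, ?_, ?_⟩
  · intro u hu
    match u, hu with
    | [], hu => simp [Dif, hRval [] hu, S]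
    | (i :: t), hu =>
      have h1 := hRval _ hu
      have h2 := hRval _ (hR i t hu)
      simp only [Dif, h1.1, h1.2, h2.1, h2.2, S]
      constructor <;> ring
  · intro u hu
    match u, hu with
    | [], hu => exact absurd hR0 hu
    | (i :: t), hu =>
      have hS : S g (i :: t) = S g t := by simp [S, hg _ hu]
      have hm1 : m (i :: t) = β / 2 * k (i :: t) + m t := by
        have h1 : m (i :: t) = k' (i :: t) + m t := rfl
        rw [h1]; simp [hk', hu]
      have hβ2 : 0 ≤ β / 2 := by linarith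
      have hd : |m (i :: t) - m t| = β / 2 * |k (i :: t)| := by
        rw [hm1, add_sub_cancel_right, abs_mul, abs_of_nonneg hβ2]
      have hd' : |-(m (i :: t)) - -(m t)| = β / 2 * |k (i :: t)| := by
        rw [← hd, ← abs_neg]
        congr 1
        ring
      have e1 := habs1 (m (i :: t)) (m t)
      have e2 := habs1 (-(m (i :: t))) (-(m t))
      rw [hd] at e1
      rw [hd'] at e2
      have hid : ∀ x : ℝ, max x 0 - max (-x) 0 = x := by
        intro x
        rcases le_total 0 x with h | h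
        · rw [max_eq_left h, max_eq_right (by linarith)]; ring
        · rw [max_eq_right h, max_eq_left (by linarith)]; ring
      have i1 := hid (m (i :: t))
      have i2 := hid (m t)
      simp only [Dif, hP0, hQ0, hS]
      by_cases hc : 0 ≤ S g t
      · simp only [hc, if_true]
        refine ⟨by linarith, ?_, ?_⟩
        · rw [abs_sub_comm] at e2
          refine le_trans (le_of_eq ?_) e2
          congr 1; ring
        · rw [abs_sub_comm] at e1
          refine le_trans (le_of_eq ?_) e1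
          congr 1; ring
      · simp only [hc, if_false]
        refine ⟨by linarith, ?_, ?_⟩
        · refine le_trans (le_of_eq ?_) e1
          congr 1; ring
        · refine le_trans (le_of_eq ?_) e2
          congr 1; ring
  · intro u hu
    rw [S_Dif, S_Dif]
    have h1 := abs_le.1 (hgS u hu)
    have h2 := abs_le.1 (hmabs u hu)
    have b1 : 0 ≤ max (m u) 0 := le_max_right _ _
    have b2 : max (m u) 0 ≤ β := max_le h2.2 hβ
    have b3 : 0 ≤ max (-(m u)) 0 := le_max_right _ _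
    have b4 : max (-(m u)) 0 ≤ β := max_le (by linarith [h2.1]) hβ
    simp only [hP0, hQ0]
    by_cases hc : 0 ≤ S g u
    · simp only [hc, if_true]
      have c1 : 0 ≤ α * S g u := mul_nonneg hα hc
      have c2 : α * S g u ≤ 1 := by nlinarith [h1.2]
      rw [abs_le, abs_le]
      refine ⟨⟨by linarith, by linarith⟩, ⟨by linarith, by linarith⟩⟩
    · simp only [hc, if_false]
      push Not at hc
      have c1 : α * S g u ≤ 0 := by nlinarith
      have c2 : -1 ≤ α * S g u := by nlinarith [h1.1]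
      rw [abs_le, abs_le]
      refine ⟨⟨by linarith, by linarith⟩, ⟨by linarith, by linarith⟩⟩

open scoped InnerProductSpace ENNReal
open Filter Topology

/-- The Hilbert space `ℓ²(T)` over the tree `T = List ℕ`. -/
abbrev H : Type := lp (fun _ : List ℕ => ℝ) 2

/-- The dual unit ball: `‖z‖ ≤ 1` and all path sums down to depth `n` bounded by `1`. -/
def Dset (n : ℕ) : Set H := {z | ‖z‖ ≤ 1 ∧ ∀ s : List ℕ, s.length ≤ n → |S z s| ≤ 1}

/-- The norm of `X_n`. -/
noncomputable def N (n : ℕ) (x : H) : ℝ := sSup ((fun z : H => ⟪z, x⟫_ℝ) '' Dset n)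

lemma S_zero (u : List ℕ) : S (fun _ => (0:ℝ)) u = 0 := by
  induction u with
  | nil => rfl
  | cons i t ih => simp only [S, ih]; ring

lemma zero_mem_D (n : ℕ) : (0 : H) ∈ Dset n := by
  refine ⟨by simp, ?_⟩
  intro s _
  have : S ((0 : H) : List ℕ → ℝ) s = 0 := by
    have h : ((0 : H) : List ℕ → ℝ) = fun _ => (0:ℝ) := rfl
    rw [h, S_zero]
  rw [this]; simp

lemma neg_mem_D {n : ℕ} {z : H} (hz : z ∈ Dset n) : -z ∈ Dset n := by
  refine ⟨by simpa using hz.1, ?_⟩
  intro s hs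
  have : S ((-z : H) : List ℕ → ℝ) s = - S z s := by
    have h : ((-z : H) : List ℕ → ℝ) = fun u => - z u := rfl
    rw [h, S_neg]
  rw [this, abs_neg]
  exact hz.2 s hs

lemma bddAbove_D (n : ℕ) (x : H) : BddAbove ((fun z : H => ⟪z, x⟫_ℝ) '' Dset n) := by
  refine ⟨‖x‖, ?_⟩
  rintro _ ⟨z, hz, rfl⟩
  have h1 := real_inner_le_norm z x
  have h2 := hz.1
  have h3 := norm_nonneg x
  simp only
  nlinarith

lemma image_nonempty (n : ℕ) (x : H) : ((fun z : H => ⟪z, x⟫_ℝ) '' Dset n).Nonempty :=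
  ⟨_, 0, zero_mem_D n, rfl⟩

lemma inner_le_N {n : ℕ} {z : H} (hz : z ∈ Dset n) (x : H) : ⟪z, x⟫_ℝ ≤ N n x :=
  le_csSup (bddAbove_D n x) ⟨z, hz, rfl⟩

lemma exists_lt_inner (n : ℕ) (x : H) {ε : ℝ} (hε : 0 < ε) : ∃ z ∈ Dset n, N n x - ε < ⟪z, x⟫_ℝ := by
  have hne : ((fun z : H => ⟪z, x⟫_ℝ) '' Dset n).Nonempty := ⟨_, 0, zero_mem_D n, rfl⟩
  obtain ⟨_, ⟨z, hz, rfl⟩, h⟩ := exists_lt_of_lt_csSup hne (sub_lt_self (N n x) hε)
  exact ⟨z, hz, h⟩

lemma N_nonneg (n : ℕ) (x : H) : 0 ≤ N n x := by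
  have := inner_le_N (zero_mem_D n) x
  simpa using this

lemma N_le_norm (n : ℕ) (x : H) : N n x ≤ ‖x‖ := by
  apply csSup_le (image_nonempty n _)
  rintro _ ⟨z, hz, rfl⟩
  have h1 := real_inner_le_norm z x
  have h2 := hz.1
  have h3 := norm_nonneg x
  simp only
  nlinarith

lemma N_add_le (n : ℕ) (x y : H) : N n (x + y) ≤ N n x + N n y := by
  apply csSup_le (image_nonempty n _)
  rintro _ ⟨z, hz, rfl⟩
  simp only
  rw [inner_add_right]
  exact add_le_add (inner_le_N hz x) (inner_le_N hz y)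

lemma N_neg (n : ℕ) (x : H) : N n (-x) = N n x := by
  have key : ∀ x : H, N n (-x) ≤ N n x := by
    intro x
    apply csSup_le (image_nonempty n _)
    rintro _ ⟨z, hz, rfl⟩
    simp only
    rw [inner_neg_right, ← inner_neg_left]
    exact inner_le_N (neg_mem_D hz) x
  apply le_antisymm (key x)
  have := key (-x)
  rwa [neg_neg] at this

lemma N_smul_le (n : ℕ) (c : ℝ) (x : H) : N n (c • x) ≤ |c| * N n x := by
  apply csSup_le (image_nonempty n _)
  rintro _ ⟨z, hz, rfl⟩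
  simp only
  rw [inner_smul_right]
  rcases le_total 0 c with h | h
  · rw [abs_of_nonneg h]
    exact mul_le_mul_of_nonneg_left (inner_le_N hz x) h
  · rw [abs_of_nonpos h]
    have h1 : c * ⟪z, x⟫_ℝ = (-c) * ⟪-z, x⟫_ℝ := by rw [inner_neg_left]; ring
    rw [h1]
    exact mul_le_mul_of_nonneg_left (inner_le_N (neg_mem_D hz) x) (by linarith)

lemma norm_le_N (n : ℕ) (x : H) : ‖x‖ ≤ (n + 1) * N n x := by
  by_cases hx : x = 0
  · subst hx
    simp only [norm_zero]
    have := N_nonneg n (0 : H)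
    positivity
  have hx0 : 0 < ‖x‖ := norm_pos_iff.2 hx
  have hn : (0:ℝ) < (n:ℝ) + 1 := by positivity
  set c : ℝ := ((n + 1) * ‖x‖)⁻¹ with hc
  have hcpos : 0 < c := by positivity
  have hmem : c • x ∈ Dset n := by
    have hnorm : ‖c • x‖ = ((n:ℝ) + 1)⁻¹ := by
      rw [norm_smul, Real.norm_eq_abs, abs_of_pos hcpos, hc]
      field_simp
    refine ⟨?_, ?_⟩
    · rw [hnorm]
      apply inv_le_one_of_one_le₀
      have : (0:ℝ) ≤ n := Nat.cast_nonneg n
      linarith
    · intro s hs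
      have h1 : ∀ v, |(c • x : H) v| ≤ ((n:ℝ) + 1)⁻¹ := by
        intro v
        rw [← hnorm, ← Real.norm_eq_abs]
        exact lp.norm_apply_le_norm (by norm_num) _ v
      have h2 := abs_S_le _ _ h1 s
      refine h2.trans ?_
      have h3 : ((s.length : ℝ) + 1) ≤ n + 1 := by
        have : (s.length : ℝ) ≤ n := by exact_mod_cast hs
        linarith
      calc ((s.length : ℝ) + 1) * ((n:ℝ) + 1)⁻¹ ≤ (n + 1) * ((n:ℝ) + 1)⁻¹ := by gcongr
        _ = 1 := by field_simp
  have h1 := inner_le_N hmem x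
  rw [inner_smul_left, real_inner_self_eq_norm_sq] at h1
  simp only [conj_trivial] at h1
  have h2 : c * ‖x‖ ^ 2 = ‖x‖ / (n + 1) := by
    rw [hc]; field_simp
  rw [h2, div_le_iff₀ hn] at h1
  linarith

/-- Truncation to a finite set of nodes. -/
noncomputable def trunc (R : Finset (List ℕ)) (f : H) : H := ∑ i ∈ R, lp.single 2 i (f i)

lemma trunc_apply (R : Finset (List ℕ)) (f : H) (u : List ℕ) :
    trunc R f u = if u ∈ R then f u else 0 := by
  unfold trunc
  rw [lp.coeFn_sum, Finset.sum_apply]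
  simp only [lp.coeFn_single, Pi.single_apply]
  rw [Finset.sum_ite_eq]

lemma exists_trunc (f : H) {ε : ℝ} (hε : 0 < ε) :
    ∃ R0 : Finset (List ℕ), ∀ R, R0 ⊆ R → ‖f - trunc R f‖ < ε := by
  have h := lp.hasSum_single (p := 2) (by norm_num) f
  have h1 := (Metric.tendsto_atTop.1 h) ε hε
  obtain ⟨R0, hR0⟩ := h1
  refine ⟨R0, fun R hR => ?_⟩
  have := hR0 R hR
  rwa [dist_comm, dist_eq_norm] at this

/-- Suffix closure. -/
def clo (R : Finset (List ℕ)) : Finset (List ℕ) :=
  insert [] (R.biUnion (fun u => u.tails.toFinset))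

lemma subset_clo (R : Finset (List ℕ)) : R ⊆ clo R := by
  intro u hu
  apply Finset.mem_insert_of_mem
  rw [Finset.mem_biUnion]
  exact ⟨u, hu, by simp⟩

lemma nil_mem_clo (R : Finset (List ℕ)) : [] ∈ clo R := Finset.mem_insert_self _ _

lemma tail_mem_clo (R : Finset (List ℕ)) (i : ℕ) (t : List ℕ) (h : i :: t ∈ clo R) : t ∈ clo R := by
  simp only [clo, Finset.mem_insert, Finset.mem_biUnion, List.mem_toFinset, List.mem_tails] at h ⊢
  rcases h with h | ⟨u, hu, hsuf⟩
  · simp at h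
  · right
    exact ⟨u, hu, (List.suffix_cons i t).trans hsuf⟩

lemma hasSum_mul (f g : H) : HasSum (fun u => f u * g u) ⟪f, g⟫_ℝ := by
  have h := lp.hasSum_inner (𝕜 := ℝ) f g
  have h2 : (fun u => ⟪f u, g u⟫_ℝ) = fun u => f u * g u := by
    funext u
    simp [mul_comm]
  rwa [h2] at h

lemma hasSum_sq (f : H) : HasSum (fun u => (f u) ^ 2) (‖f‖ ^ 2) := by
  have h := hasSum_mul f f
  rw [real_inner_self_eq_norm_sq] at h
  simpa [sq] using h

lemma memlp_of_sq {f : List ℕ → ℝ} (h : Summable (fun u => (f u) ^ 2)) : Memℓp f 2 := by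
  apply memℓp_gen
  simpa using h

lemma S_trunc (R : Finset (List ℕ)) (hR0 : [] ∈ R) (hR : ∀ i t, i :: t ∈ R → t ∈ R)
    (z : List ℕ → ℝ) (u : List ℕ) :
    ∃ v : List ℕ, v.length ≤ u.length ∧ S (fun w => if w ∈ R then z w else 0) u = S z v := by
  have hin : ∀ u ∈ R, S (fun w => if w ∈ R then z w else 0) u = S z u := by
    intro u
    induction u with
    | nil => intro h; simp [S, h]
    | cons i t ih =>
      intro h
      simp only [S, h, if_true, ih (hR i t h)]
  induction u with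
  | nil => exact ⟨[], le_rfl, hin _ hR0⟩
  | cons i t ih =>
    by_cases h : i :: t ∈ R
    · exact ⟨i :: t, le_rfl, hin _ h⟩
    · obtain ⟨v, hv, hv'⟩ := ih
      refine ⟨v, by simp; omega, ?_⟩
      simp only [S, h, if_false, zero_add]
      exact hv'

lemma amuc_core (n : ℕ) (x : H) {ε : ℝ} (hε : 0 < ε) :
    ∃ R : Finset (List ℕ), ∀ y : H, (∀ u ∈ R, y u = 0) → ∀ α β : ℝ, 0 ≤ α → 0 ≤ β →
      α ^ 2 + β ^ 2 ≤ 1 →
      α * N n x + β / 4 * N n y - ε ≤ (N n (x + y) + N n (x - y)) / 2 := by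
  classical
  set η := ε / 8 with hη
  have hηpos : 0 < η := by positivity
  obtain ⟨z, hz, hzx⟩ := exists_lt_inner n x hηpos
  obtain ⟨R1, hR1⟩ := exists_trunc x hηpos
  set R := clo R1 with hR
  have hx' := hR1 R (subset_clo R1)
  set x' := trunc R x with hx'def
  refine ⟨R, ?_⟩
  intro y hy α β hα hβ hαβ
  obtain ⟨k, hk, hky⟩ := exists_lt_inner n y hηpos
  set g : List ℕ → ℝ := fun w => if w ∈ R then z w else 0 with hg
  have hgS : ∀ u : List ℕ, u.length ≤ n → |S g u| ≤ 1 := by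
    intro u hu
    obtain ⟨v, hv, hv'⟩ := S_trunc R (nil_mem_clo R1) (tail_mem_clo R1) z u
    rw [hg, hv']
    exact hz.2 v (hv.trans hu)
  have hα1 : α ≤ 1 := by nlinarith [sq_nonneg β]
  have hβ1 : β ≤ 1 := by nlinarith [sq_nonneg α]
  obtain ⟨P, Q, hPQR, hPQ, hS⟩ := mid_key n (R : Set (List ℕ)) (by simpa using nil_mem_clo R1)
    (fun i t h => by simpa using tail_mem_clo R1 i t (by simpa using h)) g k
    (fun u hu => by
      have : u ∉ R := by simpa using hu
      simp [hg, this]) hgS hk.2 α β hα hβ hα1 hβ1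
  have hzs := hasSum_sq z
  have hks := hasSum_sq k
  -- domination
  have hdom : ∀ F : List ℕ → ℝ, (∀ u ∈ R, F u = α * g u) → (∀ u, u ∉ R → |F u| ≤ β / 2 * |k u|) →
      ∀ u, (F u) ^ 2 ≤ α ^ 2 * (z u) ^ 2 + β ^ 2 * (k u) ^ 2 := by
    intro F hF1 hF2 u
    by_cases hu : u ∈ R
    · rw [hF1 u hu, hg]
      simp only [hu, if_true]
      nlinarith [sq_nonneg (β * k u)]
    · have h1 := hF2 u hu
      have h2 : (F u) ^ 2 ≤ (β / 2 * |k u|) ^ 2 := by
        rw [← sq_abs (F u)]
        exact pow_le_pow_left₀ (abs_nonneg _) h1 2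
      have h3 : (β / 2 * |k u|) ^ 2 = β ^ 2 / 4 * (k u) ^ 2 := by
        rw [mul_pow, sq_abs]; ring
      rw [h3] at h2
      nlinarith [sq_nonneg (α * z u), sq_nonneg (β * k u)]
  have hsumm : Summable (fun u => α ^ 2 * (z u) ^ 2 + β ^ 2 * (k u) ^ 2) :=
    (hzs.summable.mul_left _).add (hks.summable.mul_left _)
  have htot : ∑' u, (α ^ 2 * (z u) ^ 2 + β ^ 2 * (k u) ^ 2) ≤ 1 := by
    have h1 : HasSum (fun u => α ^ 2 * (z u) ^ 2 + β ^ 2 * (k u) ^ 2)
        (α ^ 2 * ‖z‖ ^ 2 + β ^ 2 * ‖k‖ ^ 2) := (hzs.mul_left _).add (hks.mul_left _)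
    rw [h1.tsum_eq]
    have h2 : ‖z‖ ^ 2 ≤ 1 := pow_le_one₀ (norm_nonneg _) hz.1
    have h3 : ‖k‖ ^ 2 ≤ 1 := pow_le_one₀ (norm_nonneg _) hk.1
    nlinarith [sq_nonneg α, sq_nonneg β]
  have hmk : ∀ F : List ℕ → ℝ, (∀ u ∈ R, F u = α * g u) → (∀ u, u ∉ R → |F u| ≤ β / 2 * |k u|) →
      (∀ u : List ℕ, u.length ≤ n → |S F u| ≤ 1) → ∃ F' : H, F' ∈ Dset n ∧ ∀ u, F' u = F u := by
    intro F hF1 hF2 hF3
    have hle := hdom F hF1 hF2
    have hs : Summable (fun u => (F u) ^ 2) :=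
      Summable.of_nonneg_of_le (fun u => sq_nonneg _) hle hsumm
    refine ⟨⟨F, memlp_of_sq hs⟩, ⟨?_, ?_⟩, fun u => rfl⟩
    · have h1 := hasSum_sq (⟨F, memlp_of_sq hs⟩ : H)
      have h2 : ‖(⟨F, memlp_of_sq hs⟩ : H)‖ ^ 2 ≤ 1 := by
        rw [← h1.tsum_eq]
        exact (hs.tsum_le_tsum hle hsumm).trans htot
      exact (sq_le_one_iff₀ (norm_nonneg _)).1 h2
    · exact hF3
  obtain ⟨P', hP'D, hP'⟩ := hmk P (fun u hu => (hPQR u (by simpa using hu)).1)
    (fun u hu => (hPQ u (by simpa using hu)).2.1) (fun u hu => (hS u hu).1)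
  obtain ⟨Q', hQ'D, hQ'⟩ := hmk Q (fun u hu => (hPQR u (by simpa using hu)).2)
    (fun u hu => (hPQ u (by simpa using hu)).2.2) (fun u hu => (hS u hu).2)
  -- pairing
  have hpair : ⟪P', x' + y⟫_ℝ + ⟪Q', x' - y⟫_ℝ = 2 * α * ⟪z, x'⟫_ℝ + β / 2 * ⟪k, y⟫_ℝ := by
    have h1 := hasSum_mul P' (x' + y)
    have h2 := hasSum_mul Q' (x' - y)
    have h3 := (hasSum_mul z x').mul_left (2 * α)
    have h4 := (hasSum_mul k y).mul_left (β / 2)
    have h5 := h1.add h2
    have h6 := h3.add h4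
    have h7 : (fun u => P' u * (x' + y) u + Q' u * (x' - y) u) =
        fun u => 2 * α * (z u * x' u) + β / 2 * (k u * y u) := by
      funext u
      rw [lp.coeFn_add, lp.coeFn_sub, Pi.add_apply, Pi.sub_apply, hP' u, hQ' u, hx'def,
        trunc_apply]
      by_cases hu : u ∈ R
      · have h8 := hPQR u (by simpa using hu)
        rw [h8.1, h8.2, hy u hu, hg]
        simp only [hu, if_true]
        ring
      · have h8 := (hPQ u (by simpa using hu)).1
        have h9 : P u = Q u + β / 2 * k u := by linarith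
        rw [h9]
        simp only [hu, if_false]
        ring
    rw [h7] at h5
    exact h5.unique h6
  have e1 := inner_le_N hP'D (x' + y)
  have e2 := inner_le_N hQ'D (x' - y)
  have e3 : N n (x' + y) ≤ N n (x + y) + η := by
    have h1 : x' + y = (x + y) + (-(x - x')) := by abel
    rw [h1]
    refine (N_add_le n _ _).trans ?_
    rw [N_neg]
    have := N_le_norm n (x - x')
    linarith
  have e4 : N n (x' - y) ≤ N n (x - y) + η := by
    have h1 : x' - y = (x - y) + (-(x - x')) := by abel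
    rw [h1]
    refine (N_add_le n _ _).trans ?_
    rw [N_neg]
    have := N_le_norm n (x - x')
    linarith
  have e5 : ⟪z, x⟫_ℝ - η ≤ ⟪z, x'⟫_ℝ := by
    have h1 : ⟪z, x⟫_ℝ - ⟪z, x'⟫_ℝ = ⟪z, x - x'⟫_ℝ := by rw [inner_sub_right]
    have h2 := real_inner_le_norm z (x - x')
    have h3 := hz.1
    have h4 := norm_nonneg (x - x')
    nlinarith
  have e6 : α * (N n x - 2 * η) ≤ α * ⟪z, x'⟫_ℝ := mul_le_mul_of_nonneg_left (by linarith) hα
  have e7 : β / 4 * (N n y - η) ≤ β / 4 * ⟪k, y⟫_ℝ :=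
    mul_le_mul_of_nonneg_left hky.le (by linarith)
  have e8 : α * η ≤ η := by nlinarith
  have e9 : β * η ≤ η := by nlinarith
  rw [hη] at *
  nlinarith

end Vale.Agent.P069
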