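import Mathlib
import Vale.Agent.P069.Tree

namespace Vale.Agent.P069

open scoped InnerProductSpace ENNReal
open Filter Topology

/-- `ℓ²(T)` renormed with the norm `N n`. -/
def XN (_n : ℕ) : Type := H

/-- The underlying element of `ℓ²`. -/
def toH {n : ℕ} (x : XN n) : H := x

noncomputable instance (n : ℕ) : AddCommGroup (XN n) := inferInstanceAs (AddCommGroup H)
noncomputable instance (n : ℕ) : Module ℝ (XN n) := inferInstanceAs (Module ℝ H)

/-- The norm on `XN n`. -/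
noncomputable def normXN (n : ℕ) : AddGroupNorm (XN n) where
  toFun x := N n x
  map_zero' := by
    have h1 := N_le_norm n (0 : H)
    have h2 := N_nonneg n (0 : H)
    rw [norm_zero] at h1
    exact le_antisymm h1 h2
  add_le' x y := N_add_le n x y
  neg' x := N_neg n x
  eq_zero_of_map_eq_zero' x hx := by
    have h1 := norm_le_N n (x : H)
    have h2 : N n (x : H) = 0 := hx
    rw [h2, mul_zero] at h1
    exact norm_le_zero_iff.1 h1

noncomputable instance (n : ℕ) : NormedAddCommGroup (XN n) := (normXN n).toNormedAddCommGroup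

lemma norm_XN_def (n : ℕ) (x : XN n) : ‖x‖ = N n (x : H) := rfl

noncomputable instance (n : ℕ) : NormedSpace ℝ (XN n) where
  norm_smul_le c x := by
    rw [norm_XN_def, norm_XN_def, Real.norm_eq_abs]
    exact N_smul_le n c x

/-- The identity as a continuous linear equivalence `ℓ² ≃ XN n`. -/
noncomputable def eqv (n : ℕ) : H ≃L[ℝ] XN n :=
  LinearEquiv.toContinuousLinearEquivOfBounds (LinearEquiv.refl ℝ H : H ≃ₗ[ℝ] XN n) 1 (n + 1)
    (fun x => by rw [one_mul]; exact N_le_norm n x) (fun x => norm_le_N n x)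

lemma eqv_apply (n : ℕ) (x : H) : eqv n x = (x : XN n) := rfl

lemma norm_eqv (n : ℕ) (x : H) : ‖eqv n x‖ = N n x := rfl

instance (n : ℕ) : CompleteSpace (XN n) :=
  (completeSpace_congr (e := (eqv n).toLinearEquiv.toEquiv) (eqv n).isUniformEmbedding).1
    inferInstance

/-- The counterexample space: the `ℓ²`-sum of the `XN n`. -/
abbrev X : Type := lp XN 2

lemma X_hasSum (x : X) : HasSum (fun m => ‖x m‖ ^ 2) (‖x‖ ^ 2) := by
  have h := lp.hasSum_norm (p := 2) (by norm_num) x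
  simpa using h

/-- The coordinate functional `x ↦ (x m) u`. -/
noncomputable def coord (m : ℕ) (u : List ℕ) : X →L[ℝ] ℝ :=
  LinearMap.mkContinuous
    { toFun := fun x => (toH (x m)) u
      map_add' := fun x y => rfl
      map_smul' := fun c x => rfl } (m + 1) (by
    intro x
    have h1 : ‖(toH (x m)) u‖ ≤ ‖toH (x m)‖ := lp.norm_apply_le_norm (by norm_num) _ u
    have h2 : ‖toH (x m)‖ ≤ (m + 1) * ‖x m‖ := norm_le_N m (toH (x m))
    have h3 : ‖x m‖ ≤ ‖x‖ := lp.norm_apply_le_norm (by norm_num) x m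
    have h4 : (0:ℝ) ≤ (m:ℝ) + 1 := by positivity
    exact (h1.trans h2).trans (mul_le_mul_of_nonneg_left h3 h4))

lemma coord_apply (m : ℕ) (u : List ℕ) (x : X) : coord m u x = (toH (x m)) u := rfl

lemma exists_cof (s : Finset (ℕ × List ℕ)) :
    ∃ F : Submodule ℝ X, IsClosed (F : Set X) ∧ FiniteDimensional ℝ (X ⧸ F) ∧
      ∀ y ∈ F, ∀ p ∈ s, (toH (y p.1)) p.2 = 0 := by
  let T : X →L[ℝ] (s → ℝ) := ContinuousLinearMap.pi (fun p => coord p.1.1 p.1.2)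
  refine ⟨LinearMap.ker (T : X →ₗ[ℝ] (s → ℝ)), ?_, ?_, ?_⟩
  · exact T.isClosed_ker
  · exact (LinearMap.quotKerEquivRange (T : X →ₗ[ℝ] (s → ℝ))).symm.finiteDimensional
  · intro y hy p hp
    have h1 : T y = 0 := hy
    have h2 := congrFun h1 ⟨p, hp⟩
    exact h2


lemma scal1 (K t ε : ℝ) (hK : 0 ≤ K) (ht : 0 < t) (hε : ε = t ^ 2 / (128 * (K + 1) * (1 + t))) :
    K * (2 * ε * (1 + t)) ≤ t ^ 2 / 64 := by
  have h1 : K * (2 * ε * (1 + t)) = t ^ 2 / 64 * (K / (K + 1)) := by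
    rw [hε]
    field_simp
    ring
  rw [h1]
  have h2 : K / (K + 1) ≤ 1 := by
    rw [div_le_one (by positivity)]
    linarith
  nlinarith [sq_nonneg t]

/-- One component, on the controlled part. -/
lemma pt_in (m : ℕ) (x y : XN m) (ε t : ℝ) (hε : 0 < ε) (ht : 0 < t) (hx : ‖x‖ ≤ 1) (hy : ‖y‖ ≤ t)
    (h : ∀ α β : ℝ, 0 ≤ α → 0 ≤ β → α ^ 2 + β ^ 2 ≤ 1 →
      α * ‖x‖ + β / 4 * ‖y‖ - ε ≤ (‖x + y‖ + ‖x - y‖) / 2) :
    ‖x‖ ^ 2 + ‖y‖ ^ 2 / 16 - 2 * ε * (1 + t) ≤ (‖x + y‖ ^ 2 + ‖x - y‖ ^ 2) / 2 := by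
  set p := ‖x + y‖ with hp
  set q := ‖x - y‖ with hq
  set a := ‖x‖ with hadef
  set b := ‖y‖ with hbdef
  have hp0 : 0 ≤ p := norm_nonneg _
  have hq0 : 0 ≤ q := norm_nonneg _
  have ha0 : 0 ≤ a := norm_nonneg _
  have hb0 : 0 ≤ b := norm_nonneg _
  have hpq : ((p + q) / 2) ^ 2 ≤ (p ^ 2 + q ^ 2) / 2 := by nlinarith [sq_nonneg (p - q)]
  set r := Real.sqrt (a ^ 2 + b ^ 2 / 16) with hr
  have hr2 : r ^ 2 = a ^ 2 + b ^ 2 / 16 := Real.sq_sqrt (by positivity)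
  have hr0 : 0 ≤ r := Real.sqrt_nonneg _
  have hrle : r ≤ 1 + t := by
    have h1 : r ^ 2 ≤ (1 + t) ^ 2 := by
      rw [hr2]
      nlinarith
    exact (sq_le_sq₀ hr0 (by linarith)).1 h1
  have hmain : r - ε ≤ (p + q) / 2 := by
    rcases hr0.eq_or_lt with h0 | h0
    · rw [← h0]; linarith
    · have h1 := h (a / r) (b / 4 / r) (by positivity)
        (by positivity) (by
          rw [div_pow, div_pow, ← add_div, div_le_one (by positivity), hr2]
          apply le_of_eq; ring)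
      have h7 : a / r * a + b / 4 / r / 4 * b = r := by
        have : a / r * a + b / 4 / r / 4 * b = (a ^ 2 + b ^ 2 / 16) / r := by
          field_simp
          ring
        rw [this, ← hr2]
        field_simp
      linarith
  have h8 : r ^ 2 - 2 * ε * r ≤ ((p + q) / 2) ^ 2 := by
    rcases le_total ε r with h | h
    · have h9 : (r - ε) ^ 2 ≤ ((p + q) / 2) ^ 2 := pow_le_pow_left₀ (by linarith) hmain 2
      nlinarith [sq_nonneg ε]
    · have : r ^ 2 - 2 * ε * r ≤ 0 := by nlinarith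
      exact this.trans (sq_nonneg _)
  have h10 : 2 * ε * r ≤ 2 * ε * (1 + t) :=
    mul_le_mul_of_nonneg_left hrle (by positivity)
  linarith

/-- One component, on the tail. -/
lemma pt_out (m : ℕ) (x y : XN m) :
    ‖x‖ ^ 2 + ‖y‖ ^ 2 / 16 - ‖x‖ ^ 2 ≤ (‖x + y‖ ^ 2 + ‖x - y‖ ^ 2) / 2 := by
  set p := ‖x + y‖ with hp
  set q := ‖x - y‖ with hq
  have hpq : ((p + q) / 2) ^ 2 ≤ (p ^ 2 + q ^ 2) / 2 := by nlinarith [sq_nonneg (p - q)]
  have h1 : 2 * ‖y‖ ≤ p + q := by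
    have h2 : (2:ℝ) • y = (x + y) - (x - y) := by
      rw [two_smul]; abel
    have h3 : ‖(2:ℝ) • y‖ = 2 * ‖y‖ := by
      rw [norm_smul]; norm_num
    rw [← h3, h2]
    exact norm_sub_le _ _
  have hb0 : 0 ≤ ‖y‖ := norm_nonneg _
  have h4 : ‖y‖ ^ 2 ≤ ((p + q) / 2) ^ 2 := pow_le_pow_left₀ hb0 (by linarith) 2
  nlinarith [sq_nonneg ‖y‖]

lemma sum_bound (x y : X) (hx : ‖x‖ = 1) (t c : ℝ) (hy : ‖y‖ = t) (s : Finset ℕ)
    (hs : 1 - t ^ 2 / 64 < ∑ m ∈ s, ‖x m‖ ^ 2) (hc : (s.card : ℝ) * c ≤ t ^ 2 / 64)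
    (hin : ∀ m ∈ s, ‖x m‖ ^ 2 + ‖y m‖ ^ 2 / 16 - c ≤ (‖x m + y m‖ ^ 2 + ‖x m - y m‖ ^ 2) / 2) :
    1 + t ^ 2 / 32 ≤ (‖x + y‖ ^ 2 + ‖x - y‖ ^ 2) / 2 := by
  classical
  set e : ℕ → ℝ := fun m => if m ∈ s then c else ‖x m‖ ^ 2 with he
  have hpt : ∀ m, ‖x m‖ ^ 2 + ‖y m‖ ^ 2 / 16 - e m ≤ (‖(x + y) m‖ ^ 2 + ‖(x - y) m‖ ^ 2) / 2 := by
    intro m
    have hadd : (x + y) m = x m + y m := rfl
    have hsub : (x - y) m = x m - y m := rfl
    rw [hadd, hsub]
    by_cases hm : m ∈ s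
    · simp only [he, hm, if_true]
      exact hin m hm
    · simp only [he, hm, if_false]
      exact pt_out m (x m) (y m)
  have hyS := X_hasSum y
  have hpS := X_hasSum (x + y)
  have hqS := X_hasSum (x - y)
  have hxS := X_hasSum x
  rw [hx] at hxS
  rw [hy] at hyS
  have heS : HasSum e (1 ^ 2 + ∑ m ∈ s, (c - ‖x m‖ ^ 2)) := by
    have h1 : HasSum (fun m => if m ∈ s then c - ‖x m‖ ^ 2 else 0) (∑ m ∈ s, (c - ‖x m‖ ^ 2)) := by
      have h2 : ∑ m ∈ s, (c - ‖x m‖ ^ 2) = ∑ m ∈ s, (if m ∈ s then c - ‖x m‖ ^ 2 else 0) := by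
        apply Finset.sum_congr rfl
        intro m hm
        simp [hm]
      rw [h2]
      apply hasSum_sum_of_ne_finset_zero
      intro m hm
      simp [hm]
    have h3 := hxS.add h1
    have h4 : (fun m => ‖x m‖ ^ 2 + (if m ∈ s then c - ‖x m‖ ^ 2 else 0)) = e := by
      funext m
      by_cases hm : m ∈ s
      · simp [he, hm]
      · simp [he, hm]
    rwa [h4] at h3
  have hL := (hxS.add (hyS.div_const 16)).sub heS
  have hRr := (hpS.add hqS).div_const 2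
  have hfin := hasSum_le hpt hL hRr
  rw [Finset.sum_sub_distrib, Finset.sum_const, nsmul_eq_mul] at hfin
  linarith

/-- Midpoint convexity of the norm of `X`, in sequence-free form. -/
lemma X_amuc (x : X) (hx : ‖x‖ = 1) (t : ℝ) (ht : 0 < t) :
    ∃ F : Submodule ℝ X, IsClosed (F : Set X) ∧ FiniteDimensional ℝ (X ⧸ F) ∧
      ∀ y ∈ F, ‖y‖ = 1 → 1 + t ^ 2 / 32 ≤ (‖x + t • y‖ ^ 2 + ‖x - t • y‖ ^ 2) / 2 := by
  classical
  -- tail control
  have hsum := X_hasSum x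
  rw [hx, one_pow] at hsum
  have ht2 : 0 < t ^ 2 / 64 := by positivity
  obtain ⟨s, hs⟩ : ∃ s : Finset ℕ, 1 - t ^ 2 / 64 < ∑ m ∈ s, ‖x m‖ ^ 2 := by
    have h1 := (Metric.tendsto_atTop.1 hsum) _ ht2
    obtain ⟨s, hs⟩ := h1
    refine ⟨s, ?_⟩
    have h2 := hs s le_rfl
    rw [Real.dist_eq, abs_lt] at h2
    linarith [h2.1]
  set ε : ℝ := t ^ 2 / (128 * ((s.card : ℝ) + 1) * (1 + t)) with hε
  have hεpos : 0 < ε := by positivity
  have hcore := fun m => amuc_core m (toH (x m)) hεpos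
  choose R hR using hcore
  obtain ⟨F, hFc, hFf, hF⟩ := exists_cof (s.biUnion (fun m => (R m).image (fun u => (m, u))))
  refine ⟨F, hFc, hFf, ?_⟩
  intro y hyF hy1
  set y' : X := t • y with hy'
  have hy'norm : ‖y'‖ = t := by rw [hy', norm_smul, hy1, Real.norm_eq_abs, abs_of_pos ht, mul_one]
  have hy'F : y' ∈ F := F.smul_mem t hyF
  have hvan : ∀ m ∈ s, ∀ u ∈ R m, (toH (y' m)) u = 0 := by
    intro m hm u hu
    apply hF y' hy'F (m, u)
    rw [Finset.mem_biUnion]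
    exact ⟨m, hm, Finset.mem_image.2 ⟨u, hu, rfl⟩⟩
  have ha : ∀ m, ‖x m‖ ≤ 1 := fun m => hx ▸ lp.norm_apply_le_norm (by norm_num) x m
  have hb : ∀ m, ‖y' m‖ ≤ t := fun m => hy'norm ▸ lp.norm_apply_le_norm (by norm_num) y' m
  apply sum_bound x y' hx t (2 * ε * (1 + t)) hy'norm s hs
    (scal1 s.card t ε (Nat.cast_nonneg _) ht hε)
  intro m hm
  apply pt_in m (x m) (y' m) ε t hεpos ht (ha m) (hb m)
  intro α β hα hβ hαβ
  exact hR m (toH (y' m)) (hvan m hm) α β hα hβ hαβ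

end Vale.Agent.P069
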