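import Mathlib
import Vale.Agent.P069.Space

namespace Vale.Agent.P069

open scoped InnerProductSpace ENNReal NNReal
open Filter Topology

/-- Basis vector of `ℓ²(T)`. -/
noncomputable def eH (s : List ℕ) : H := lp.single 2 s (1:ℝ)

/-- Sum of the basis vectors along the path from the root to a node. -/
noncomputable def fH : List ℕ → H
  | [] => eH []
  | (i :: t) => eH (i :: t) + fH t

lemma inner_eH (z : H) (s : List ℕ) : ⟪z, eH s⟫_ℝ = z s := by
  rw [eH, lp.inner_single_right]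
  simp

lemma inner_fH (z : H) (s : List ℕ) : ⟪z, fH s⟫_ℝ = S z s := by
  induction s with
  | nil => simp only [fH, S, inner_eH]
  | cons i t ih => simp only [fH, S, inner_add_right, inner_eH, ih]

lemma eH_apply (s u : List ℕ) : (eH s : H) u = if u = s then 1 else 0 := by
  by_cases h : u = s
  · subst h; simp [eH]
  · rw [if_neg h, eH, lp.single_apply_ne _ _ _ h]

lemma S_eH (s u : List ℕ) : 0 ≤ S (eH s) u ∧ S (eH s) u ≤ 1 ∧
    (u.length < s.length → S (eH s) u = 0) := by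
  induction u with
  | nil =>
    simp only [S, eH_apply]
    split_ifs with h
    · subst h; simp
    · simp
  | cons i t ih =>
    simp only [S, eH_apply, List.length_cons]
    split_ifs with h
    · subst h
      have := ih.2.2 (by simp)
      rw [this]; simp
    · rw [zero_add]
      exact ⟨ih.1, ih.2.1, fun h2 => ih.2.2 (by omega)⟩

lemma norm_eH (s : List ℕ) : ‖eH s‖ = 1 := by
  rw [eH, lp.norm_single (by norm_num)]
  simp

lemma eH_mem (n : ℕ) (s : List ℕ) : eH s ∈ Dset n := by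
  refine ⟨(norm_eH s).le, fun u _ => ?_⟩
  rw [abs_le]
  have := S_eH s u
  constructor <;> linarith [this.1, this.2.1]

lemma one_le_N_eH (n : ℕ) (s : List ℕ) : 1 ≤ N n (eH s) := by
  have h := inner_le_N (eH_mem n s) (eH s)
  rw [real_inner_self_eq_norm_sq, norm_eH] at h
  simpa using h

lemma N_fH (n : ℕ) (s : List ℕ) (hs : s.length ≤ n) : N n (fH s) ≤ 1 := by
  apply csSup_le (image_nonempty n _)
  rintro _ ⟨z, hz, rfl⟩
  simp only
  rw [inner_fH]
  exact (le_abs_self _).trans (hz.2 s hs)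

/-- Basis vector in the `n`-th summand of `X`. -/
noncomputable def eX (n : ℕ) (s : List ℕ) : X := lp.single 2 n (eqv n (eH s))

/-- Path vector in the `n`-th summand of `X`. -/
noncomputable def fX (n : ℕ) (s : List ℕ) : X := lp.single 2 n (eqv n (fH s))

lemma norm_single_X (n : ℕ) (x : XN n) : ‖(lp.single 2 n x : X)‖ = ‖x‖ :=
  lp.norm_single (by norm_num) n x

lemma one_le_eX (n : ℕ) (s : List ℕ) : 1 ≤ ‖eX n s‖ := by
  rw [eX, norm_single_X, norm_eqv]
  exact one_le_N_eH n s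

lemma fX_le_one (n : ℕ) (s : List ℕ) (hs : s.length ≤ n) : ‖fX n s‖ ≤ 1 := by
  rw [fX, norm_single_X, norm_eqv]
  exact N_fH n s hs

lemma fX_nil (n : ℕ) : fX n [] = eX n [] := rfl

lemma fX_cons (n : ℕ) (i : ℕ) (t : List ℕ) : fX n (i :: t) = fX n t + eX n (i :: t) := by
  rw [fX, fX, eX, fH, map_add, lp.single_add, add_comm]

/-- The children `i :: s` give a weakly null sequence. -/
lemma weak_null (n : ℕ) (s : List ℕ) (φ : StrongDual ℝ X) :
    Tendsto (fun i : ℕ => φ (eX n (i :: s))) atTop (𝓝 0) := by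
  let ψ : StrongDual ℝ H := (φ ∘L (lp.singleContinuousLinearMap ℝ XN 2 n)) ∘L (eqv n : H →L[ℝ] XN n)
  let w : H := (InnerProductSpace.toDual ℝ H).symm ψ
  have h1 : ∀ u, φ (eX n u) = w u := by
    intro u
    rw [← inner_eH w u, InnerProductSpace.toDual_symm_apply]
    rfl
  simp only [h1]
  have h2 := (hasSum_sq w).summable
  have h3 : Tendsto (fun u : List ℕ => (w u) ^ 2) cofinite (𝓝 0) := h2.tendsto_cofinite_zero
  have h4 : Function.Injective (fun i : ℕ => i :: s) := fun a b hab => by simpa using hab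
  have h5 := h3.comp h4.tendsto_cofinite
  rw [Nat.cofinite_eq_atTop] at h5
  have h6 := h5.sqrt
  simp only [Function.comp_def, Real.sqrt_zero, Real.sqrt_sq_eq_abs] at h6
  exact (tendsto_zero_iff_abs_tendsto_zero _).2 h6

/-- A weakly null sequence comes close to any closed subspace of finite codimension. -/
lemma close_cof (v : ℕ → X) (hv : ∀ φ : StrongDual ℝ X, Tendsto (fun i => φ (v i)) atTop (𝓝 0))
    (F : Submodule ℝ X) (hF : IsClosed (F : Set X)) [FiniteDimensional ℝ (X ⧸ F)] {ε : ℝ}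
    (hε : 0 < ε) : ∃ i, ∃ y ∈ F, ‖v i - y‖ < ε := by
  have : IsClosed (F : Set X) := hF
  obtain ⟨R, hR⟩ := F.mkQ.exists_rightInverse_of_surjective (by rw [Submodule.range_mkQ])
  let b := Module.finBasis ℝ (X ⧸ F)
  have hcoord : ∀ j, Tendsto (fun i => b.coord j (F.mkQ (v i))) atTop (𝓝 0) := by
    intro j
    let L : (X ⧸ F) →L[ℝ] ℝ := LinearMap.toContinuousLinearMap (b.coord j)
    exact hv (L ∘L F.mkQL)
  have hsum : Tendsto (fun i => ∑ j, (b.coord j (F.mkQ (v i))) • R (b j)) atTop (𝓝 0) := by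
    have := tendsto_finsetSum (Finset.univ) (fun j _ => (hcoord j).smul_const (R (b j)))
    simpa using this
  have hnorm := hsum.norm
  rw [norm_zero] at hnorm
  obtain ⟨i, hi⟩ := (hnorm.eventually (gt_mem_nhds hε)).exists
  refine ⟨i, v i - ∑ j, (b.coord j (F.mkQ (v i))) • R (b j), ?_, ?_⟩
  · rw [← Submodule.Quotient.mk_eq_zero, ← Submodule.mkQ_apply, map_sub, map_sum]
    have h1 : ∀ j, F.mkQ ((b.coord j (F.mkQ (v i))) • R (b j)) = (b.coord j (F.mkQ (v i))) • b j := by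
      intro j
      rw [map_smul]
      congr 1
      exact congrArg (fun T => T (b j)) hR
    rw [Finset.sum_congr rfl (fun j _ => h1 j)]
    simp only [Module.Basis.coord_apply, b.sum_repr, sub_self]
  · rw [sub_sub_cancel]
    exact hi

/-- One step up the tree. -/
lemma step (M : Seminorm ℝ X) (a b δ : ℝ) (ha : 0 < a) (hδ : 0 < δ)
    (hM1 : ∀ x, a * ‖x‖ ≤ M x) (hM2 : ∀ x, M x ≤ b * ‖x‖)
    (h : ∀ x, M x = 1 → ∃ F : Submodule ℝ X, IsClosed (F : Set X) ∧ FiniteDimensional ℝ (X ⧸ F) ∧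
      ∀ y ∈ F, M y = 1 → 1 + δ ≤ M (x + (a / (2 * b)) • y))
    (n : ℕ) (s : List ℕ) (hs : s.length ≤ n) (hfs : a ≤ M (fX n s)) :
    ∃ i, M (fX n s) + a * δ / 2 ≤ M (fX n (i :: s)) := by
  have hb : 0 < b := by
    have h1 := hM1 (eX 0 [])
    have h2 := hM2 (eX 0 [])
    have h3 := one_le_eX 0 []
    by_contra hb
    nlinarith
  set r := M (fX n s) with hr
  have hr0 : 0 < r := lt_of_lt_of_le ha hfs
  have hrb : r ≤ b := by
    have h1 := hM2 (fX n s)
    have h2 := fX_le_one n s hs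
    nlinarith
  have hrr : ‖r⁻¹‖ = r⁻¹ := by rw [Real.norm_eq_abs, abs_of_pos (inv_pos.2 hr0)]
  have hMx : M (r⁻¹ • fX n s) = 1 := by
    rw [map_smul_eq_mul, hrr, ← hr]
    exact inv_mul_cancel₀ hr0.ne'
  obtain ⟨F, hFc, hFd, hF⟩ := h _ hMx
  set t := a / (2 * b) with ht
  have ht0 : 0 < t := by positivity
  have hε : 0 < min (δ / 2) t / b := by positivity
  have hwn : ∀ φ : StrongDual ℝ X, Tendsto (fun i : ℕ => φ (r⁻¹ • eX n (i :: s))) atTop (𝓝 0) := by
    intro φ
    have h1 := (weak_null n s φ).const_mul r⁻¹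
    simpa using h1
  obtain ⟨i, y, hyF, hy⟩ := close_cof _ hwn F hFc hε
  refine ⟨i, ?_⟩
  set v := r⁻¹ • eX n (i :: s) with hv
  have hvy : M (v - y) ≤ min (δ / 2) t := by
    have h1 := hM2 (v - y)
    have h2 : b * ‖v - y‖ ≤ b * (min (δ / 2) t / b) := mul_le_mul_of_nonneg_left hy.le hb.le
    rw [mul_div_cancel₀ _ hb.ne'] at h2
    exact h1.trans h2
  have hvy1 := hvy.trans (min_le_left _ _)
  have hvy2 := hvy.trans (min_le_right _ _)
  have hMv : 2 * t ≤ M v := by
    rw [hv, map_smul_eq_mul, hrr]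
    have h1 := hM1 (eX n (i :: s))
    have h2 := one_le_eX n (i :: s)
    have h3 : a ≤ M (eX n (i :: s)) := by nlinarith
    have h4 : b⁻¹ ≤ r⁻¹ := inv_anti₀ hr0 hrb
    calc 2 * t = b⁻¹ * a := by rw [ht]; field_simp
      _ ≤ r⁻¹ * M (eX n (i :: s)) := mul_le_mul h4 h3 ha.le (by positivity)
  have hMy : t ≤ M y := by
    have h1 : M v ≤ M (v - y) + M y := by
      have := map_add_le_add M (v - y) y
      rwa [sub_add_cancel] at this
    linarith
  set l := M y with hl
  have hl0 : 0 < l := lt_of_lt_of_le ht0 hMy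
  have hll : ‖l⁻¹‖ = l⁻¹ := by rw [Real.norm_eq_abs, abs_of_pos (inv_pos.2 hl0)]
  have hMy' : M (l⁻¹ • y) = 1 := by
    rw [map_smul_eq_mul, hll, ← hl]
    exact inv_mul_cancel₀ hl0.ne'
  have h1 := hF _ (F.smul_mem l⁻¹ hyF) hMy'
  -- convexity
  set x := r⁻¹ • fX n s with hx
  have h2 : x + t • (l⁻¹ • y) = (1 - t * l⁻¹) • x + (t * l⁻¹) • (x + y) := by
    rw [smul_add, smul_smul, sub_smul, one_smul]
    abel
  have hc0 : 0 ≤ t * l⁻¹ := by positivity
  have hc1 : t * l⁻¹ ≤ 1 := by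
    rw [← div_eq_mul_inv, div_le_one hl0]
    exact hMy
  have h3 : M (x + t • (l⁻¹ • y)) ≤ (1 - t * l⁻¹) * 1 + (t * l⁻¹) * M (x + y) := by
    rw [h2]
    refine (map_add_le_add M _ _).trans ?_
    rw [map_smul_eq_mul M (1 - t * l⁻¹) x, map_smul_eq_mul M (t * l⁻¹) (x + y), hMx,
      Real.norm_eq_abs, Real.norm_eq_abs, abs_of_nonneg hc0, abs_of_nonneg (by linarith)]
  have h4 : 1 + δ ≤ M (x + y) := by
    have h5 : δ ≤ (t * l⁻¹) * (M (x + y) - 1) := by nlinarith
    have h6 : 0 ≤ M (x + y) - 1 := by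
      by_contra hneg
      push Not at hneg
      nlinarith
    nlinarith
  have h5 : 1 + δ / 2 ≤ M (x + v) := by
    have h6 : M (x + y) ≤ M (x + v) + M (v - y) := by
      have := map_sub_le_add M (x + v) (v - y)
      rwa [show x + v - (v - y) = x + y by abel] at this
    linarith
  have h6 : x + v = r⁻¹ • fX n (i :: s) := by
    rw [fX_cons, smul_add]
  rw [h6, map_smul_eq_mul, hrr] at h5
  have h7 : r * (1 + δ / 2) ≤ r * (r⁻¹ * M (fX n (i :: s))) := mul_le_mul_of_nonneg_left h5 hr0.le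
  rw [mul_inv_cancel_left₀ hr0.ne'] at h7
  nlinarith

/-- Any equivalent norm fails asymptotic uniform convexity. -/
lemma no_auc (M : Seminorm ℝ X) (a b δ : ℝ) (ha : 0 < a) (hδ : 0 < δ)
    (hM1 : ∀ x, a * ‖x‖ ≤ M x) (hM2 : ∀ x, M x ≤ b * ‖x‖)
    (h : ∀ x, M x = 1 → ∃ F : Submodule ℝ X, IsClosed (F : Set X) ∧ FiniteDimensional ℝ (X ⧸ F) ∧
      ∀ y ∈ F, M y = 1 → 1 + δ ≤ M (x + (a / (2 * b)) • y)) : False := by
  have hη : 0 < a * δ / 2 := by positivity
  obtain ⟨n, hn⟩ := exists_nat_gt ((b - a) / (a * δ / 2))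
  rw [div_lt_iff₀ hη] at hn
  have key : ∀ k ≤ n, ∃ s : List ℕ, s.length = k ∧ a + k * (a * δ / 2) ≤ M (fX n s) := by
    intro k
    induction k with
    | zero =>
      intro _
      refine ⟨[], rfl, ?_⟩
      have h1 := hM1 (eX n [])
      have h2 := one_le_eX n []
      rw [fX_nil]
      push_cast
      nlinarith
    | succ k ih =>
      intro hk
      obtain ⟨s, hs1, hs2⟩ := ih (by omega)
      have h3 : a ≤ M (fX n s) := by
        have : 0 ≤ (k : ℝ) * (a * δ / 2) := by positivity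
        linarith
      obtain ⟨i, hi⟩ := step M a b δ ha hδ hM1 hM2 h n s (by omega) h3
      refine ⟨i :: s, by simp [hs1], ?_⟩
      push_cast
      linarith
  obtain ⟨s, hs1, hs2⟩ := key n le_rfl
  have h1 := hM2 (fX n s)
  have h2 := fX_le_one n s hs1.le
  have hb : 0 < b := by
    have h1 := hM1 (eX 0 [])
    have h2 := hM2 (eX 0 [])
    have h3 := one_le_eX 0 []
    by_contra hb
    nlinarith
  nlinarith

end Vale.Agent.P069
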