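import Mathlib
import Vale.Agent.P069.Space

namespace Vale.Agent.P069

open scoped InnerProductSpace ENNReal NNReal
open Filter Topology

/-- Reflexivity in the sense of the canonical map into the bidual. -/
def Refl (E : Type) [NormedAddCommGroup E] [NormedSpace ℝ E] : Prop :=
  Function.Surjective (NormedSpace.inclusionInDoubleDual ℝ E)

lemma refl_hilbert (K : Type) [NormedAddCommGroup K] [InnerProductSpace ℝ K] [CompleteSpace K] :
    Refl K := by
  intro Λ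
  let T : StrongDual ℝ K := LinearMap.mkContinuous
    { toFun := fun v => Λ (InnerProductSpace.toDual ℝ K v)
      map_add' := fun v w => by rw [map_add, map_add]
      map_smul' := fun c v => by
        rw [LinearIsometryEquiv.map_smulₛₗ, map_smulₛₗ]
        simp } ‖Λ‖ (fun v => by
    have h1 := Λ.le_opNorm (InnerProductSpace.toDual ℝ K v)
    rw [LinearIsometryEquiv.norm_map] at h1
    exact h1)
  refine ⟨(InnerProductSpace.toDual ℝ K).symm T, ?_⟩
  ext φ
  rw [NormedSpace.dual_def]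
  obtain ⟨v, rfl⟩ := (InnerProductSpace.toDual ℝ K).surjective φ
  rw [InnerProductSpace.toDual_apply_apply, real_inner_comm,
    InnerProductSpace.toDual_symm_apply]
  rfl

lemma refl_congr {E F : Type} [NormedAddCommGroup E] [NormedSpace ℝ E] [NormedAddCommGroup F]
    [NormedSpace ℝ F] (e : E ≃L[ℝ] F) (h : Refl E) : Refl F := by
  intro Λ
  let T : StrongDual ℝ E →L[ℝ] StrongDual ℝ F :=
    (ContinuousLinearMap.compL ℝ F E ℝ).flip (e.symm : F →L[ℝ] E)
  obtain ⟨x, hx⟩ := h (Λ ∘L T)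
  refine ⟨e x, ?_⟩
  ext ψ
  rw [NormedSpace.dual_def]
  have h1 := congrArg (fun L => L (ψ ∘L (e : E →L[ℝ] F))) hx
  simp only [NormedSpace.dual_def] at h1
  have h2 : T (ψ ∘L (e : E →L[ℝ] F)) = ψ := by
    ext y
    simp [T]
  have h3 : (Λ ∘L T) (ψ ∘L (e : E →L[ℝ] F)) = Λ ψ := by
    rw [ContinuousLinearMap.comp_apply, h2]
  rw [h3] at h1
  exact h1

section pairing

variable (E : ℕ → Type) [∀ i, NormedAddCommGroup (E i)] [∀ i, NormedSpace ℝ (E i)]

lemma norm_id_le (i : ℕ) :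
    ‖(ContinuousLinearMap.id ℝ (StrongDual ℝ (E i)))‖ ≤ ((1 : ℝ≥0) : ℝ) := by
  simpa using ContinuousLinearMap.norm_id_le (𝕜 := ℝ) (E := StrongDual ℝ (E i))

/-- The pairing between `ℓ²(E*)` and `ℓ²(E)`. -/
noncomputable def pair : lp (fun i => StrongDual ℝ (E i)) 2 →L[ℝ] StrongDual ℝ (lp E 2) :=
  lp.dualPairing 2 2 (fun i => ContinuousLinearMap.id ℝ (StrongDual ℝ (E i))) (K := 1)
    (fun i => norm_id_le E i)

lemma pair_apply (φ : lp (fun i => StrongDual ℝ (E i)) 2) (x : lp E 2) :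
    pair E φ x = ∑' i, φ i (x i) := rfl

lemma exists_almost_norming {F : Type} [NormedAddCommGroup F] [NormedSpace ℝ F]
    (φ : StrongDual ℝ F) : ∃ a : F, ‖a‖ ≤ 1 ∧ ‖φ‖ / 2 ≤ φ a := by
  rcases eq_or_lt_of_le (norm_nonneg φ) with h | h
  · exact ⟨0, by simp, by simp [← h]⟩
  · obtain ⟨a, ha1, ha2⟩ := φ.exists_lt_apply_of_lt_opNorm (show ‖φ‖ / 2 < ‖φ‖ by linarith)
    rw [Real.norm_eq_abs] at ha2
    rcases le_total 0 (φ a) with h0 | h0
    · rw [abs_of_nonneg h0] at ha2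
      exact ⟨a, ha1.le, ha2.le⟩
    · rw [abs_of_nonpos h0] at ha2
      exact ⟨-a, by rw [norm_neg]; exact ha1.le, by rw [map_neg]; exact ha2.le⟩

lemma pair_surjective : Function.Surjective (pair E) := by
  intro φ
  let ψ : ∀ i, StrongDual ℝ (E i) := fun i => φ ∘L (lp.singleContinuousLinearMap ℝ E 2 i)
  have hψ : ∀ i a, ψ i a = φ (lp.single 2 i a) := fun i a => rfl
  choose a ha1 ha2 using fun i => exists_almost_norming (ψ i)
  have hmem : Memℓp ψ 2 := by
    refine memℓp_gen' (C := 4 * ‖φ‖ ^ 2) ?_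
    intro s
    simp only [ENNReal.toReal_ofNat, Real.rpow_ofNat]
    set A : ℝ := ∑ i ∈ s, ‖ψ i‖ ^ 2 with hA
    have hA0 : 0 ≤ A := Finset.sum_nonneg (fun i _ => by positivity)
    let x : lp E 2 := ∑ i ∈ s, lp.single 2 i (‖ψ i‖ • a i)
    have hx : ‖x‖ ^ 2 ≤ A := by
      have h1 := lp.norm_sum_single (E := E) (p := 2) (by norm_num) (fun i => ‖ψ i‖ • a i) s
      simp only [ENNReal.toReal_ofNat, Real.rpow_ofNat] at h1
      rw [show ‖x‖ ^ 2 = ∑ i ∈ s, ‖‖ψ i‖ • a i‖ ^ 2 from h1, hA]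
      refine Finset.sum_le_sum (fun i _ => ?_)
      rw [norm_smul, norm_norm, mul_pow]
      have h2 : ‖a i‖ ^ 2 ≤ 1 := pow_le_one₀ (norm_nonneg _) (ha1 i)
      nlinarith [sq_nonneg ‖ψ i‖]
    have hφx : A / 2 ≤ φ x := by
      have h1 : φ x = ∑ i ∈ s, ‖ψ i‖ * ψ i (a i) := by
        show φ (∑ i ∈ s, lp.single 2 i (‖ψ i‖ • a i)) = _
        rw [map_sum]
        refine Finset.sum_congr rfl (fun i _ => ?_)
        rw [← hψ, map_smul, smul_eq_mul]
      rw [h1, hA, Finset.sum_div]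
      refine Finset.sum_le_sum (fun i _ => ?_)
      have := mul_le_mul_of_nonneg_left (ha2 i) (norm_nonneg (ψ i))
      linarith
    have h3 : φ x ≤ ‖φ‖ * ‖x‖ := (le_abs_self _).trans (φ.le_opNorm x)
    have h4 : (A / 2) ^ 2 ≤ ‖φ‖ ^ 2 * A := by
      calc (A / 2) ^ 2 ≤ (‖φ‖ * ‖x‖) ^ 2 := pow_le_pow_left₀ (by positivity) (hφx.trans h3) 2
        _ = ‖φ‖ ^ 2 * ‖x‖ ^ 2 := by ring
        _ ≤ ‖φ‖ ^ 2 * A := mul_le_mul_of_nonneg_left hx (by positivity)
    rcases eq_or_lt_of_le hA0 with h0 | h0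
    · rw [← h0]; positivity
    · have : A * A ≤ A * (4 * ‖φ‖ ^ 2) := by nlinarith
      exact le_of_mul_le_mul_left this h0
  refine ⟨⟨ψ, hmem⟩, ?_⟩
  ext x
  rw [pair_apply]
  have h1 := lp.hasSum_single (E := E) (p := 2) (by norm_num) x
  have h2 := h1.mapL φ
  exact h2.tsum_eq

lemma refl_lp (h : ∀ i, Refl (E i)) : Refl (lp E 2) := by
  intro Λ
  obtain ⟨ψ, hψ⟩ := pair_surjective (fun i => StrongDual ℝ (E i)) (Λ ∘L pair E)
  choose x hx using fun i => h i (ψ i)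
  have hnorm : ∀ i, ‖x i‖ = ‖ψ i‖ := by
    intro i
    rw [← hx i]
    exact ((NormedSpace.inclusionInDoubleDualLi (E := E i) ℝ).norm_map (x i)).symm
  have hmem : Memℓp x 2 := by
    have h1 : Memℓp (fun i => ψ i) 2 := lp.memℓp ψ
    rw [← memℓp_norm_iff] at h1 ⊢
    simpa only [hnorm] using h1
  refine ⟨⟨x, hmem⟩, ?_⟩
  ext φ
  obtain ⟨φ, rfl⟩ := pair_surjective E φ
  rw [NormedSpace.dual_def, pair_apply]
  have h1 := congrArg (fun L => L φ) hψ
  simp only [pair_apply, ContinuousLinearMap.comp_apply] at h1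
  rw [← h1]
  refine tsum_congr (fun i => ?_)
  rw [← hx i]
  rfl

end pairing

lemma refl_X : Refl X :=
  refl_lp XN (fun n => refl_congr (eqv n) (refl_hilbert H))

end Vale.Agent.P069
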