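import Mathlib
import Vale.Agent.P069.NotAUC
import Vale.Agent.P069.Reflexive

namespace Vale.Agent.P069

open scoped InnerProductSpace ENNReal NNReal
open Filter Topology

lemma X_infinite : ¬ FiniteDimensional ℝ X := by
  intro hfd
  have : FiniteDimensional ℝ (X ⧸ (⊥ : Submodule ℝ X)) := inferInstance
  obtain ⟨i, y, hy, h⟩ := close_cof (fun i => eX 0 (i :: [])) (weak_null 0 []) ⊥
    (by simp) one_pos
  rw [Submodule.mem_bot] at hy
  subst hy
  rw [sub_zero] at h
  exact absurd (one_le_eX 0 (i :: [])) (not_le.2 h)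

lemma X_separable : TopologicalSpace.SeparableSpace X := by
  let s : Set X := Set.range (fun p : ℕ × List ℕ => eX p.1 p.2)
  have hs : s.Countable := Set.countable_range _
  have h1 : TopologicalSpace.IsSeparable (Submodule.span ℝ s : Set X) := hs.isSeparable.span
  have h2 : ∀ x : X, x ∈ closure (Submodule.span ℝ s : Set X) := by
    have h3 : ∀ n (z : H), (lp.single 2 n (eqv n z) : X) ∈ (Submodule.span ℝ s).topologicalClosure := by
      intro n z
      have h4 := lp.hasSum_single (E := fun _ : List ℕ => ℝ) (p := 2) (by norm_num) z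
      have h5 := (h4.mapL (eqv n : H →L[ℝ] XN n)).mapL (lp.singleContinuousLinearMap ℝ XN 2 n)
      refine (Submodule.isClosed_topologicalClosure _).mem_of_tendsto h5 ?_
      refine Eventually.of_forall (fun r => ?_)
      refine Submodule.sum_mem _ (fun u _ => ?_)
      refine (Submodule.le_topologicalClosure _) ?_
      have h6 : (lp.single 2 u (z u) : H) = z u • eH u := by
        rw [eH, ← lp.single_smul, smul_eq_mul, mul_one]
      rw [h6]
      have h7 : (lp.singleContinuousLinearMap ℝ XN 2 n) ((eqv n : H →L[ℝ] XN n) (z u • eH u)) =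
          z u • eX n u := by
        rw [map_smul, map_smul]
        rfl
      rw [h7]
      exact Submodule.smul_mem _ _ (Submodule.subset_span ⟨(n, u), rfl⟩)
    intro x
    have h4 := lp.hasSum_single (E := XN) (p := 2) (by norm_num) x
    have h5 : x ∈ (Submodule.span ℝ s).topologicalClosure := by
      refine (Submodule.isClosed_topologicalClosure _).mem_of_tendsto h4 ?_
      refine Eventually.of_forall (fun r => ?_)
      exact Submodule.sum_mem _ (fun n _ => h3 n (toH (x n)))
    exact h5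
  have h3 : TopologicalSpace.IsSeparable (Set.univ : Set X) := by
    have := h1.closure
    rwa [Set.eq_univ_of_forall h2] at this
  exact TopologicalSpace.isSeparable_univ_iff.1 h3

/-- Quantitative midpoint modulus. -/
lemma X_mid (x : X) (hx : ‖x‖ = 1) (t : ℝ) (ht : 0 < t) :
    ∃ F : Submodule ℝ X, IsClosed (F : Set X) ∧ FiniteDimensional ℝ (X ⧸ F) ∧
      ∀ y ∈ F, ‖y‖ = 1 → t ^ 2 / (32 * (2 + t)) ≤ max ‖x + t • y‖ ‖x - t • y‖ - 1 := by
  obtain ⟨F, h1, h2, h3⟩ := X_amuc x hx t ht
  refine ⟨F, h1, h2, fun y hy hy1 => ?_⟩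
  have h4 := h3 y hy hy1
  set m := max ‖x + t • y‖ ‖x - t • y‖ with hm
  have h5 : ‖x + t • y‖ ≤ m := le_max_left _ _
  have h6 : ‖x - t • y‖ ≤ m := le_max_right _ _
  have h7 : m ≤ 1 + t := by
    have hty : ‖t • y‖ = t := by rw [norm_smul, hy1, mul_one, Real.norm_eq_abs, abs_of_pos ht]
    refine max_le ?_ ?_
    · refine (norm_add_le _ _).trans ?_
      rw [hx, hty]
    · refine (norm_sub_le _ _).trans ?_
      rw [hx, hty]
  have h8 : 0 ≤ ‖x + t • y‖ := norm_nonneg _
  have h9 : 0 ≤ ‖x - t • y‖ := norm_nonneg _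
  have h10 : ‖x + t • y‖ ^ 2 ≤ m ^ 2 := pow_le_pow_left₀ h8 h5 2
  have h11 : ‖x - t • y‖ ^ 2 ≤ m ^ 2 := pow_le_pow_left₀ h9 h6 2
  have h12 : 1 + t ^ 2 / 32 ≤ m ^ 2 := by linarith
  have hm0 : 0 ≤ m := h8.trans h5
  have hm1 : 1 ≤ m := by nlinarith [sq_nonneg t]
  rw [div_le_iff₀ (by positivity)]
  nlinarith

end Vale.Agent.P069
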